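import Vale.Agent.P113.Bump

namespace Vale.Agent.P113

open Finset

/-! ### the amplitude -/

theorem ind_le_one (M : Machine) (w : List ℕ) (j : ℕ) : ind M w j ≤ 1 := by
  unfold ind; split_ifs <;> simp

/-- the amplitude `∑ ind j / 2 ^ (j+1)` -/
noncomputable def amp (M : Machine) (w : List ℕ) : ℝ := ∑' j, (ind M w j : ℝ) * (1 / 2) ^ (j + 1)

theorem summable_half : Summable fun j : ℕ => ((1 : ℝ) / 2) ^ (j + 1) := by
  have := summable_geometric_of_lt_one (r := (1 : ℝ) / 2) (by norm_num) (by norm_num)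
  exact (summable_nat_add_iff 1).2 this

theorem tsum_half : ∑' j : ℕ, ((1 : ℝ) / 2) ^ (j + 1) = 1 := by
  have h := tsum_geometric_of_lt_one (r := (1 : ℝ) / 2) (by norm_num) (by norm_num)
  simp_rw [pow_succ]
  rw [tsum_mul_right, h]
  norm_num

theorem term_nonneg (M : Machine) (w : List ℕ) (j : ℕ) :
    0 ≤ (ind M w j : ℝ) * (1 / 2) ^ (j + 1) := by positivity

theorem term_le (M : Machine) (w : List ℕ) (j : ℕ) :
    (ind M w j : ℝ) * (1 / 2) ^ (j + 1) ≤ (1 / 2) ^ (j + 1) := by
  have h : (ind M w j : ℝ) ≤ 1 := by exact_mod_cast ind_le_one M w j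
  have : (0 : ℝ) ≤ (1 / 2) ^ (j + 1) := by positivity
  nlinarith

theorem summable_amp (M : Machine) (w : List ℕ) :
    Summable fun j => (ind M w j : ℝ) * (1 / 2) ^ (j + 1) :=
  Summable.of_nonneg_of_le (term_nonneg M w) (term_le M w) summable_half

theorem amp_nonneg (M : Machine) (w : List ℕ) : 0 ≤ amp M w := tsum_nonneg (term_nonneg M w)

theorem amp_le_one (M : Machine) (w : List ℕ) : amp M w ≤ 1 := by
  rw [← tsum_half]
  exact (summable_amp M w).tsum_le_tsum (term_le M w) summable_half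

theorem amp_pos_iff (M : Machine) (w : List ℕ) : 0 < amp M w ↔ Halts M w := by
  constructor
  · intro h
    by_contra hn
    have : amp M w = 0 := by
      unfold amp
      have : (fun j => (ind M w j : ℝ) * (1 / 2) ^ (j + 1)) = fun _ => (0 : ℝ) := by
        funext j
        have : ind M w j = 0 := by
          unfold ind
          rw [if_neg]
          intro hj
          exact hn ⟨j, hj⟩
        simp [this]
      rw [this, tsum_zero]
    linarith
  · rintro ⟨n, hn⟩
    have h1 : ind M w n = 1 := by unfold ind; rw [if_pos hn]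
    have h2 : (ind M w n : ℝ) * (1 / 2) ^ (n + 1) ≤ amp M w :=
      (summable_amp M w).le_tsum n (fun j _ => term_nonneg M w j)
    have h3 : (0 : ℝ) < (ind M w n : ℝ) * (1 / 2) ^ (n + 1) := by rw [h1]; positivity
    linarith

theorem partial_amp (M : Machine) (w : List ℕ) (K : ℕ) :
    ∑ j ∈ range K, (ind M w j : ℝ) * (1 / 2) ^ (j + 1) = (num M w K : ℝ) / 2 ^ K := by
  induction K with
  | zero => simp [num_zero]
  | succ K ih =>
    rw [sum_range_succ, ih, num_succ]
    push_cast
    rw [one_div_pow, pow_succ]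
    field_simp

theorem amp_approx (M : Machine) (w : List ℕ) (K : ℕ) :
    |amp M w - (num M w K : ℝ) / 2 ^ K| ≤ 1 / 2 ^ K := by
  have h := (summable_amp M w).sum_add_tsum_nat_add K
  rw [partial_amp] at h
  have htail : ∑' j, (ind M w (j + K) : ℝ) * (1 / 2) ^ (j + K + 1) ≤ 1 / 2 ^ K := by
    have hs : Summable fun j : ℕ => ((1 : ℝ) / 2) ^ (j + K + 1) := by
      have := (summable_nat_add_iff K).2 summable_half
      exact this
    have h1 := ((summable_nat_add_iff K).2 (summable_amp M w)).tsum_le_tsum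
      (fun j => term_le M w (j + K)) hs
    refine h1.trans (le_of_eq ?_)
    have : (fun j : ℕ => ((1 : ℝ) / 2) ^ (j + K + 1)) =
        fun j : ℕ => ((1 : ℝ) / 2) ^ (j + 1) * (1 / 2) ^ K := by
      funext j
      rw [← pow_add]
      congr 1
      ring
    rw [this, tsum_mul_right, tsum_half]
    simp
  have hnn : 0 ≤ ∑' j, (ind M w (j + K) : ℝ) * (1 / 2) ^ (j + K + 1) :=
    tsum_nonneg fun j => term_nonneg M w (j + K)
  have e : amp M w - (num M w K : ℝ) / 2 ^ K =
      ∑' j, (ind M w (j + K) : ℝ) * (1 / 2) ^ (j + K + 1) := by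
    unfold amp
    linarith
  rw [e, abs_of_nonneg hnn]
  exact htail

/-! ### the exponential -/

theorem exp_approx {A B E : ℕ} (hA : 0 < A) (hE : 0 < E) (hBE : B ≤ A * E) :
    |Real.exp (-((B : ℝ) / A)) - ((A * E - B : ℕ) : ℝ) ^ E / ((A * E : ℕ) : ℝ) ^ E|
      ≤ (B : ℝ) ^ 2 / E := by
  have hA' : (0 : ℝ) < A := by exact_mod_cast hA
  have hA1 : (1 : ℝ) ≤ A := by exact_mod_cast hA
  have hE' : (0 : ℝ) < E := by exact_mod_cast hE
  set y : ℝ := (B : ℝ) / A with hy
  have hy0 : 0 ≤ y := by positivity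
  set x : ℝ := y / E with hx
  have hx0 : 0 ≤ x := by positivity
  have hBE' : (B : ℝ) ≤ A * E := by exact_mod_cast hBE
  have hx1 : x ≤ 1 := by
    rw [hx, hy, div_div, div_le_one (by positivity)]
    exact hBE'
  have e1 : ((A * E - B : ℕ) : ℝ) ^ E / ((A * E : ℕ) : ℝ) ^ E = (1 - x) ^ E := by
    rw [← div_pow, Nat.cast_sub hBE]
    congr 1
    rw [hx, hy]
    push_cast
    field_simp
  have e2 : Real.exp (-y) = Real.exp (-x) ^ E := by
    rw [← Real.exp_nat_mul]
    congr 1
    rw [hx]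
    field_simp
  rw [e1]
  have h1 : (1 - x) ^ E ≤ Real.exp (-y) := by
    rw [e2]
    exact pow_le_pow_left₀ (by linarith) (by linarith [Real.add_one_le_exp (-x)]) E
  have h2 : Real.exp (-x) ≤ 1 / (1 + x) := by
    rw [Real.exp_neg, ← one_div]
    apply one_div_le_one_div_of_le (by positivity)
    linarith [Real.add_one_le_exp x]
  set b : ℝ := (1 / (1 + x)) ^ E with hb
  have hb0 : 0 ≤ b := by positivity
  have hb1 : b ≤ 1 := by
    apply pow_le_one₀ (by positivity)
    rw [div_le_one (by positivity)]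
    linarith
  have h3 : Real.exp (-y) ≤ b := by
    rw [e2]
    exact pow_le_pow_left₀ (Real.exp_pos _).le h2 E
  have h4 : (1 - x) ^ E = (1 - x ^ 2) ^ E * b := by
    rw [hb, ← mul_pow]
    congr 1
    field_simp
    ring
  have h5 : 1 - (E : ℝ) * x ^ 2 ≤ (1 - x ^ 2) ^ E := by
    have := one_add_mul_le_pow (a := -x ^ 2) (by nlinarith) E
    have e : (1 : ℝ) + -x ^ 2 = 1 - x ^ 2 := by ring
    rw [e] at this
    linarith
  have h6 : (E : ℝ) * x ^ 2 = y ^ 2 / E := by
    rw [hx]
    field_simp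
  have h7 : y ^ 2 / E ≤ (B : ℝ) ^ 2 / E := by
    apply div_le_div_of_nonneg_right _ hE'.le
    apply pow_le_pow_left₀ hy0
    rw [hy]
    exact div_le_self (by positivity) hA1
  rw [abs_of_nonneg (by linarith)]
  have h8 : b - (1 - x) ^ E ≤ (E : ℝ) * x ^ 2 := by
    rw [h4]
    have : (1 - (E : ℝ) * x ^ 2) * b ≤ (1 - x ^ 2) ^ E * b :=
      mul_le_mul_of_nonneg_right h5 hb0
    have h9 : 0 ≤ (E : ℝ) * x ^ 2 := by positivity
    nlinarith
  linarith

end Vale.Agent.P113
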