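import Vale.Agent.P113.Machine

namespace Vale.Agent.P113

open Polynomial

/-- A term `(p, q, m)` stands for `(p - q) y ^ m`. -/
abbrev Term := ℕ × ℕ × ℕ

def dterm (z : Term) : List Term :=
  [(z.1 * z.2.2, z.2.1 * z.2.2, z.2.2 + 1), (z.2.1, z.1, z.2.2 + 2)]

def dstep (L : List Term) : List Term := L.flatMap dterm

def derivTerms (k : ℕ) : List Term := Nat.rec [(1, 0, 0)] (fun _ L => dstep L) k

theorem derivTerms_zero : derivTerms 0 = [(1, 0, 0)] := rfl

theorem derivTerms_succ (k : ℕ) : derivTerms (k + 1) = dstep (derivTerms k) := rfl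

noncomputable def polyOf : List Term → ℝ[X]
  | [] => 0
  | z :: L => C ((z.1 : ℝ) - z.2.1) * X ^ z.2.2 + polyOf L

theorem polyOf_append (L₁ L₂ : List Term) : polyOf (L₁ ++ L₂) = polyOf L₁ + polyOf L₂ := by
  induction L₁ with
  | nil => simp [polyOf]
  | cons z L ih => simp [polyOf, ih, add_assoc]

theorem polyOf_dterm (z : Term) :
    polyOf (dterm z) = - (X ^ 2 * (C ((z.1 : ℝ) - z.2.1) * X ^ z.2.2
      - derivative (C ((z.1 : ℝ) - z.2.1) * X ^ z.2.2))) := by
  obtain ⟨p, q, m⟩ := z
  simp only [dterm, polyOf, derivative_C_mul_X_pow]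
  rcases m with _ | m
  · simp [map_sub]
    ring
  · simp only [Nat.cast_mul, map_sub, map_mul, Nat.add_sub_cancel]
    push_cast
    ring

theorem polyOf_dstep (L : List Term) :
    polyOf (dstep L) = - (X ^ 2 * (polyOf L - derivative (polyOf L))) := by
  induction L with
  | nil => simp [dstep, polyOf]
  | cons z L ih =>
    have h : dstep (z :: L) = dterm z ++ dstep L := by simp [dstep]
    rw [h, polyOf_append, ih, polyOf_dterm]
    simp only [polyOf, derivative_add]
    ring

/-- the time profile of the force -/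
noncomputable def prof (t : ℝ) : ℝ := expNegInvGlue (1 - t)

noncomputable def profD (k : ℕ) (t : ℝ) : ℝ :=
  (polyOf (derivTerms k)).eval (1 - t)⁻¹ * expNegInvGlue (1 - t)

theorem profD_zero : profD 0 = prof := by
  funext t
  simp [profD, prof, derivTerms_zero, polyOf]

theorem hasDerivAt_profD (k : ℕ) (t : ℝ) : HasDerivAt (profD k) (profD (k + 1) t) t := by
  have h1 := expNegInvGlue.hasDerivAt_polynomial_eval_inv_mul (polyOf (derivTerms k)) (1 - t)
  have h2 : HasDerivAt (fun s : ℝ => 1 - s) (-1) t := by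
    simpa using (hasDerivAt_id t).const_sub 1
  have h3 := h1.comp t h2
  refine h3.congr_deriv ?_
  rw [profD, derivTerms_succ, polyOf_dstep]
  simp only [eval_neg]
  ring

theorem contDiff_prof {n : ℕ∞} : ContDiff ℝ n prof :=
  expNegInvGlue.contDiff.comp (contDiff_const.sub contDiff_id)

theorem profD_of_one_le (k : ℕ) {t : ℝ} (ht : 1 ≤ t) : profD k t = 0 := by
  rw [profD, expNegInvGlue.zero_of_nonpos (by linarith), mul_zero]

theorem prof_pos {t : ℝ} (ht : t < 1) : 0 < prof t := expNegInvGlue.pos_of_pos (by linarith)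

theorem prof_nonneg (t : ℝ) : 0 ≤ prof t := expNegInvGlue.nonneg _

theorem prof_of_one_le {t : ℝ} (ht : 1 ≤ t) : prof t = 0 :=
  expNegInvGlue.zero_of_nonpos (by linarith)

/-! evaluation of the term list at `B / A` -/

/-- exponents are bounded by `2 k` -/
theorem derivTerms_bound (k : ℕ) : ∀ z ∈ derivTerms k, z.2.2 ≤ 2 * k := by
  induction k with
  | zero => intro z hz; simp [derivTerms_zero] at hz; simp [hz]
  | succ k ih =>
    intro z hz
    rw [derivTerms_succ, dstep, List.mem_flatMap] at hz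
    obtain ⟨y, hy, hz⟩ := hz
    have := ih y hy
    simp only [dterm, List.mem_cons, List.not_mem_nil, or_false] at hz
    rcases hz with rfl | rfl <;> simp <;> omega

/-- positive part of the homogenised evaluation -/
def posPart (A B D : ℕ) : List Term → ℕ
  | [] => 0
  | z :: L => z.1 * (B ^ z.2.2 * A ^ (D - z.2.2)) + posPart A B D L

def negPart (A B D : ℕ) : List Term → ℕ
  | [] => 0
  | z :: L => z.2.1 * (B ^ z.2.2 * A ^ (D - z.2.2)) + negPart A B D L

theorem eval_polyOf {A B D : ℕ} (hA : 0 < A) (L : List Term) (hL : ∀ z ∈ L, z.2.2 ≤ D) :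
    (polyOf L).eval ((B : ℝ) / A) =
      ((posPart A B D L : ℝ) - negPart A B D L) / (A : ℝ) ^ D := by
  have hA' : (A : ℝ) ≠ 0 := by positivity
  induction L with
  | nil => simp [polyOf, posPart, negPart]
  | cons z L ih =>
    have hz : z.2.2 ≤ D := hL z (by simp)
    have ih' := ih (fun y hy => hL y (by simp [hy]))
    have hpow : (A : ℝ) ^ D = (A : ℝ) ^ z.2.2 * (A : ℝ) ^ (D - z.2.2) := by
      rw [← pow_add, Nat.add_sub_cancel' hz]
    simp only [polyOf, posPart, negPart, eval_add, eval_mul, eval_C, eval_pow, eval_X, ih']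
    push_cast
    rw [hpow, div_pow]
    field_simp
    ring

end Vale.Agent.P113
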