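import Mathlib

/-!
Definitions for P113: forced Navier-Stokes flows on the flat torus, Turing machines and
effective forces.
-/

namespace Vale.Agent.P113

open Set

/-- Euclidean three-space, as coordinate vectors. -/
abbrev R3 := Fin 3 → ℝ

/-- The flat torus `(ℝ/ℤ)³`. -/
abbrev T3 := Fin 3 → AddCircle (1 : ℝ)

/-- The projection `ℝ³ → (ℝ/ℤ)³`. -/
def proj (x : R3) : T3 := fun i => (x i : AddCircle (1 : ℝ))

/-- The `j`-th component of a vector field on the torus, read on the cover `ℝ³`. -/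
def comp (u : ℝ → T3 → R3) (j : Fin 3) : ℝ → R3 → ℝ := fun t x => u t (proj x) j

/-- A scalar field on the torus, read on the cover `ℝ³`. -/
def lift (p : ℝ → T3 → ℝ) : ℝ → R3 → ℝ := fun t x => p t (proj x)

/-- The `i`-th partial derivative of a scalar function on `ℝ³`. -/
noncomputable def pd (i : Fin 3) (φ : R3 → ℝ) (x : R3) : ℝ := fderiv ℝ φ x (Pi.single i 1)

/-- The time derivative within a set of times (one-sided at its end points). -/
noncomputable def td (I : Set ℝ) (φ : ℝ → R3 → ℝ) (t : ℝ) (x : R3) : ℝ :=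
  derivWithin (fun r => φ r x) I t

/-- Smooth on `[0,∞) × ℝ³`. -/
def SmoothOn (φ : ℝ → R3 → ℝ) : Prop :=
  ContDiffOn ℝ (⊤ : ℕ∞) (fun z : ℝ × R3 => φ z.1 z.2) (Ici 0 ×ˢ univ)

/-- Continuous on `[0,T] × ℝ³`. -/
def ContOn (T : ℝ) (φ : ℝ → R3 → ℝ) : Prop :=
  ContinuousOn (fun z : ℝ × R3 => φ z.1 z.2) (Icc 0 T ×ˢ univ)

/-- `(u, p)` is a classical solution on `[0,T] × T³` of the incompressible Navier-Stokes
equations with viscosity `ν`, force `f` and zero initial velocity. -/
structure ClassicalSolution (ν T : ℝ) (f u : ℝ → T3 → R3) (p : ℝ → T3 → ℝ) : Prop where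
  time_diff : ∀ j x, DifferentiableOn ℝ (fun t => comp u j t x) (Icc 0 T)
  space_diff : ∀ j, ∀ t ∈ Icc 0 T, ContDiff ℝ 2 (comp u j t)
  pressure_diff : ∀ t ∈ Icc 0 T, ContDiff ℝ 1 (lift p t)
  cont_u : ∀ j, ContOn T (comp u j)
  cont_time : ∀ j, ContOn T (td (Icc 0 T) (comp u j))
  cont_space : ∀ i j, ContOn T (fun t => pd i (comp u j t))
  cont_space₂ : ∀ i k j, ContOn T (fun t => pd i (pd k (comp u j t)))
  cont_p : ContOn T (lift p)
  cont_gradp : ∀ i, ContOn T (fun t => pd i (lift p t))
  mean_zero : ∀ t ∈ Icc 0 T, ∫ x in Icc (0 : R3) 1, lift p t x = 0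
  initial : ∀ x, u 0 x = 0
  div_free : ∀ t ∈ Icc 0 T, ∀ x, ∑ i, pd i (comp u i t) x = 0
  momentum : ∀ j, ∀ t ∈ Icc 0 T, ∀ x,
    td (Icc 0 T) (comp u j) t x + ∑ i, comp u i t x * pd i (comp u j t) x
      = - pd j (lift p t) x + ν * ∑ i, pd i (pd i (comp u j t)) x + comp f j t x

/-- `X` is (a lift to `ℝ³` of) the trajectory of `a ∈ T³` under the velocity field `u`. -/
def IsTrajectory (u : ℝ → T3 → R3) (a : T3) (X : ℝ → R3) : Prop :=
  proj (X 0) = a ∧
    ∀ j, ∀ t ∈ Ici 0, HasDerivWithinAt (fun s => X s j) (u t (proj (X t)) j) (Ici 0) t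

/-! ### Turing machines -/

/-- A deterministic one-tape Turing machine: the list of its halting states and its transition
table.  States and symbols are natural numbers, the start state is `0`, the blank is `0`.
An entry `((q, s), (q', s', m))` says: in state `q` reading `s`, go to state `q'`, write `s'`
and stay (`m = 0`), move left (`m = 1`) or move right (otherwise).
The first matching entry is used; without one the machine leaves its configuration fixed. -/
abbrev Machine := List ℕ × List ((ℕ × ℕ) × (ℕ × ℕ × ℕ))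

/-- A configuration: state, cells left of the head (nearest first), and the head cell followed
by the cells to its right; all other cells are blank. -/
abbrev Config := ℕ × List ℕ × List ℕ

/-- One step of a machine. -/
def step (M : Machine) (c : Config) : Config :=
  (M.2.lookup (c.1, c.2.2.headD 0)).elim c fun r =>
    if r.2.2 = 0 then (r.1, c.2.1, r.2.1 :: c.2.2.tail)
    else if r.2.2 = 1 then (r.1, c.2.1.tail, c.2.1.headD 0 :: r.2.1 :: c.2.2.tail)
    else (r.1, r.2.1 :: c.2.1, c.2.2.tail)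

/-- `M` halts on the input word `w`. -/
def Halts (M : Machine) (w : List ℕ) : Prop :=
  ∃ n : ℕ, ((step M)^[n] (0, [], w)).1 ∈ M.1

/-! ### Effective forces -/

/-- Mixed derivatives on `[0,∞) × ℝ³`: `none` is the time derivative, `some i` the `i`-th
spatial derivative. -/
noncomputable def mixed (l : List (Option (Fin 3))) (φ : ℝ → R3 → ℝ) : ℝ → R3 → ℝ :=
  l.foldr (fun o ψ => o.elim (td (Ici 0) ψ) (fun i t => pd i (ψ t))) φ

/-- The rational number `(p - q) / (r + 1)` coded by `(p, q, r)`. -/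
noncomputable def ratOf (z : ℕ × ℕ × ℕ) : ℝ := ((z.1 : ℝ) - z.2.1) / ((z.2.2 : ℝ) + 1)

/-- The program `c` computes every mixed derivative of every component of the field `f` at
every rational point with nonnegative time, to every accuracy `1 / (n + 1)`. -/
def Computes (c : Nat.Partrec.Code) (f : ℝ → T3 → R3) : Prop :=
  ∀ (j : Fin 3) (l : List (Option (Fin 3))) (a b : ℕ) (x₀ x₁ x₂ : ℕ × ℕ × ℕ) (n : ℕ),
    ∃ z : ℕ × ℕ × ℕ,
      Encodable.encode z ∈ c.eval (Encodable.encode (j, l, (a, b), (x₀, x₁, x₂), n)) ∧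
      |mixed l (comp f j) ((a : ℝ) / (b + 1)) ![ratOf x₀, ratOf x₁, ratOf x₂] - ratOf z|
        ≤ 1 / ((n : ℝ) + 1)

end Vale.Agent.P113
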