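import Vale.Agent.P113.Defs

namespace Vale.Agent.P113

open Set MeasureTheory

/-! ### partial derivatives -/

theorem pd_const (i : Fin 3) (c : ℝ) (x : R3) : pd i (fun _ => c) x = 0 := by
  simp [pd]

theorem pd_sub_const (i : Fin 3) (φ : R3 → ℝ) (c : ℝ) (x : R3) :
    pd i (fun y => φ y - c) x = pd i φ x := by
  simp [pd, fderiv_sub_const]

theorem pd_mul {i : Fin 3} {φ ψ : R3 → ℝ} {x : R3} (hφ : DifferentiableAt ℝ φ x)
    (hψ : DifferentiableAt ℝ ψ x) :
    pd i (fun y => φ y * ψ y) x = pd i φ x * ψ x + φ x * pd i ψ x := by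
  unfold pd
  rw [fderiv_fun_mul hφ hψ]
  simp
  ring

theorem pd_add {i : Fin 3} {φ ψ : R3 → ℝ} {x : R3} (hφ : DifferentiableAt ℝ φ x)
    (hψ : DifferentiableAt ℝ ψ x) :
    pd i (fun y => φ y + ψ y) x = pd i φ x + pd i ψ x := by
  unfold pd
  rw [fderiv_fun_add hφ hψ]
  simp

theorem pd_sub {i : Fin 3} {φ ψ : R3 → ℝ} {x : R3} (hφ : DifferentiableAt ℝ φ x)
    (hψ : DifferentiableAt ℝ ψ x) :
    pd i (fun y => φ y - ψ y) x = pd i φ x - pd i ψ x := by
  unfold pd
  rw [fderiv_fun_sub hφ hψ]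
  simp

theorem pd_neg {i : Fin 3} {φ : R3 → ℝ} {x : R3} :
    pd i (fun y => - φ y) x = - pd i φ x := by
  unfold pd
  rw [fderiv_fun_neg]
  simp

theorem pd_const_mul {i : Fin 3} {φ : R3 → ℝ} {x : R3} (c : ℝ) (hφ : DifferentiableAt ℝ φ x) :
    pd i (fun y => c * φ y) x = c * pd i φ x := by
  unfold pd
  rw [fderiv_const_mul hφ]
  simp

theorem pd_contDiff {i : Fin 3} {φ : R3 → ℝ} (hφ : ContDiff ℝ 2 φ) : ContDiff ℝ 1 (pd i φ) := by
  have h : ContDiff ℝ 1 (fderiv ℝ φ) := hφ.fderiv_right (by norm_num)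
  exact h.clm_apply contDiff_const

theorem proj_add_single (x : R3) (i : Fin 3) : proj (x + Pi.single i 1) = proj x := by
  funext k
  unfold proj
  by_cases h : k = i
  · subst h
    simp only [Pi.add_apply, Pi.single_eq_same]
    rw [AddCircle.coe_add]
    simp
  · simp [h]

/-- Integral of a divergence of a periodic field over a period cell vanishes. -/
theorem integral_div_periodic (Φ : Fin 3 → R3 → ℝ) (hΦ : ∀ i, ContDiff ℝ 1 (Φ i))
    (hper : ∀ i x, Φ i (x + Pi.single i 1) = Φ i x) :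
    ∫ x in Icc (0 : R3) 1, ∑ i, pd i (Φ i) x = 0 := by
  have hcont : Continuous fun x => ∑ i, pd i (Φ i) x := by
    refine continuous_finsetSum _ fun i _ => ?_
    exact ((hΦ i).continuous_fderiv (by norm_num)).clm_apply continuous_const
  have h := integral_divergence_of_hasFDerivAt_off_countable' (n := 2) (0 : R3) 1
    (by intro i; simp) Φ (fun i x => fderiv ℝ (Φ i) x) ∅ countable_empty
    (fun i => (hΦ i).continuous.continuousOn)
    (fun x _ i => ((hΦ i).differentiable (by norm_num) x).hasFDerivAt)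
    (hcont.integrableOn_Icc)
  have h' : ∫ x in Icc (0 : R3) 1, ∑ i, pd i (Φ i) x = _ := h
  rw [h']
  apply Finset.sum_eq_zero
  intro i _
  rw [sub_eq_zero]
  congr 1
  funext y
  have : (i.insertNth ((1 : R3) i) y : R3) = (i.insertNth ((0 : R3) i) y : R3)
      + (Pi.single i (1 : ℝ) : R3) := by
    funext k
    refine Fin.succAboveCases i ?_ ?_ k
    · simp
    · intro j
      simp
  show Φ i (i.insertNth ((1 : R3) i) y) = Φ i (i.insertNth ((0 : R3) i) y)
  rw [this, hper]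

/-- The pointwise energy identity at a fixed time. -/
theorem energy_identity (ν : ℝ) (V : Fin 3 → R3 → ℝ) (c : R3) (q : R3 → ℝ)
    (hV : ∀ j, ContDiff ℝ 2 (V j)) (hq : ContDiff ℝ 1 q)
    (hdiv : ∀ x, ∑ i, pd i (V i) x = 0) (x : R3) :
    ∑ j, (V j x - c j) * (-(∑ i, V i x * pd i (V j) x) - pd j q x
        + ν * ∑ i, pd i (pd i (V j)) x) =
      (∑ i, pd i (fun y => -(V i y * (∑ j, (V j y - c j) * (V j y - c j)) * (1 / 2))
        - (V i y - c i) * q y + ν * ∑ j, (V j y - c j) * pd i (V j) y) x)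
      - ν * ∑ i, ∑ j, (pd i (V j) x) ^ 2 := by
  have dV : ∀ j, DifferentiableAt ℝ (V j) x := fun j => (hV j).differentiable (by norm_num) x
  have dW : ∀ j, DifferentiableAt ℝ (fun y => V j y - c j) x := fun j => (dV j).sub_const _
  have dq : DifferentiableAt ℝ q x := hq.differentiable (by norm_num) x
  have dP : ∀ i j, DifferentiableAt ℝ (pd i (V j)) x := fun i j =>
    (pd_contDiff (hV j)).differentiable (by norm_num) x
  have dWW : ∀ j, DifferentiableAt ℝ (fun y => (V j y - c j) * (V j y - c j)) x :=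
    fun j => (dW j).mul (dW j)
  have dWP : ∀ i j, DifferentiableAt ℝ (fun y => (V j y - c j) * pd i (V j) y) x :=
    fun i j => (dW j).mul (dP i j)
  have hd := hdiv x
  simp only [Fin.sum_univ_three] at hd ⊢
  have key : ∀ i, pd i (fun y => -(V i y * ((V 0 y - c 0) * (V 0 y - c 0)
        + (V 1 y - c 1) * (V 1 y - c 1) + (V 2 y - c 2) * (V 2 y - c 2)) * (1 / 2))
        - (V i y - c i) * q y + ν * ((V 0 y - c 0) * pd i (V 0) y
        + (V 1 y - c 1) * pd i (V 1) y + (V 2 y - c 2) * pd i (V 2) y)) x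
      = -((pd i (V i) x * ((V 0 x - c 0) * (V 0 x - c 0)
        + (V 1 x - c 1) * (V 1 x - c 1) + (V 2 x - c 2) * (V 2 x - c 2))
        + V i x * (2 * (V 0 x - c 0) * pd i (V 0) x + 2 * (V 1 x - c 1) * pd i (V 1) x
          + 2 * (V 2 x - c 2) * pd i (V 2) x)) * (1 / 2))
        - (pd i (V i) x * q x + (V i x - c i) * pd i q x)
        + ν * ((pd i (V 0) x * pd i (V 0) x + (V 0 x - c 0) * pd i (pd i (V 0)) x)
          + (pd i (V 1) x * pd i (V 1) x + (V 1 x - c 1) * pd i (pd i (V 1)) x)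
          + (pd i (V 2) x * pd i (V 2) x + (V 2 x - c 2) * pd i (pd i (V 2)) x)) := by
    intro i
    have dS : DifferentiableAt ℝ (fun y => (V 0 y - c 0) * (V 0 y - c 0)
        + (V 1 y - c 1) * (V 1 y - c 1) + (V 2 y - c 2) * (V 2 y - c 2)) x :=
      ((dWW 0).add (dWW 1)).add (dWW 2)
    have dA : DifferentiableAt ℝ (fun y => V i y * ((V 0 y - c 0) * (V 0 y - c 0)
        + (V 1 y - c 1) * (V 1 y - c 1) + (V 2 y - c 2) * (V 2 y - c 2))) x := (dV i).mul dS
    have dA' : DifferentiableAt ℝ (fun y => V i y * ((V 0 y - c 0) * (V 0 y - c 0)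
        + (V 1 y - c 1) * (V 1 y - c 1) + (V 2 y - c 2) * (V 2 y - c 2)) * (1 / 2)) x :=
      dA.mul_const _
    have dB : DifferentiableAt ℝ (fun y => (V i y - c i) * q y) x := (dW i).mul dq
    have dC : DifferentiableAt ℝ (fun y => (V 0 y - c 0) * pd i (V 0) y
        + (V 1 y - c 1) * pd i (V 1) y + (V 2 y - c 2) * pd i (V 2) y) x :=
      ((dWP i 0).add (dWP i 1)).add (dWP i 2)
    have dN : DifferentiableAt ℝ (fun y => -(V i y * ((V 0 y - c 0) * (V 0 y - c 0)
        + (V 1 y - c 1) * (V 1 y - c 1) + (V 2 y - c 2) * (V 2 y - c 2)) * (1 / 2))) x :=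
      dA'.neg
    have dNB : DifferentiableAt ℝ (fun y => -(V i y * ((V 0 y - c 0) * (V 0 y - c 0)
        + (V 1 y - c 1) * (V 1 y - c 1) + (V 2 y - c 2) * (V 2 y - c 2)) * (1 / 2))
        - (V i y - c i) * q y) x := dN.sub dB
    have dνC : DifferentiableAt ℝ (fun y => ν * ((V 0 y - c 0) * pd i (V 0) y
        + (V 1 y - c 1) * pd i (V 1) y + (V 2 y - c 2) * pd i (V 2) y)) x := dC.const_mul ν
    have dWP01 : DifferentiableAt ℝ (fun y => (V 0 y - c 0) * pd i (V 0) y
        + (V 1 y - c 1) * pd i (V 1) y) x := (dWP i 0).add (dWP i 1)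
    have dWW01 : DifferentiableAt ℝ (fun y => (V 0 y - c 0) * (V 0 y - c 0)
        + (V 1 y - c 1) * (V 1 y - c 1)) x := (dWW 0).add (dWW 1)
    rw [pd_add dNB dνC, pd_sub dN dB, pd_neg,
      pd_const_mul ν dC, pd_mul (dW i) dq,
      pd_add dWP01 (dWP i 2), pd_add (dWP i 0) (dWP i 1),
      pd_mul (dW 0) (dP i 0), pd_mul (dW 1) (dP i 1), pd_mul (dW 2) (dP i 2),
      pd_mul dA (differentiableAt_const _), pd_mul (dV i) dS,
      pd_add dWW01 (dWW 2), pd_add (dWW 0) (dWW 1),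
      pd_mul (dW 0) (dW 0), pd_mul (dW 1) (dW 1), pd_mul (dW 2) (dW 2),
      pd_const, pd_sub_const, pd_sub_const, pd_sub_const, pd_sub_const]
    ring
  rw [key 0, key 1, key 2]
  linear_combination (-(1 / 2) * ((V 0 x - c 0) * (V 0 x - c 0)
        + (V 1 x - c 1) * (V 1 x - c 1) + (V 2 x - c 2) * (V 2 x - c 2)) - q x) * (-hd)

end Vale.Agent.P113
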