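import Vale.Agent.P113.Defs

namespace Vale.Agent.P113

open Primrec

theorem primrec_pow : Primrec₂ ((· ^ ·) : ℕ → ℕ → ℕ) :=
  Primrec₂.unpaired'.1 Nat.Primrec.pow

theorem primrec_headD : Primrec fun l : List ℕ => l.headD 0 := by
  have h : Primrec fun l : List ℕ => (l.head?).getD 0 :=
    Primrec.option_getD.comp Primrec.list_head? (Primrec.const 0)
  refine h.of_eq ?_
  intro l
  cases l <;> rfl

def stepSome (c : Config) (r : ℕ × ℕ × ℕ) : Config :=
  if r.2.2 = 0 then (r.1, c.2.1, r.2.1 :: c.2.2.tail)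
  else if r.2.2 = 1 then (r.1, c.2.1.tail, c.2.1.headD 0 :: r.2.1 :: c.2.2.tail)
  else (r.1, r.2.1 :: c.2.1, c.2.2.tail)

theorem step_eq (M : Machine) (c : Config) :
    step M c = Option.casesOn (M.2.lookup (c.1, c.2.2.headD 0)) c (fun v => stepSome c v) := by
  unfold step stepSome
  rcases M.2.lookup (c.1, c.2.2.headD 0) with _ | r <;> rfl

theorem primrec_stepSome :
    Primrec fun z : Config × (ℕ × ℕ × ℕ) => stepSome z.1 z.2 := by
  have hc : Primrec fun z : Config × (ℕ × ℕ × ℕ) => z.1 := Primrec.fst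
  have hv : Primrec fun z : Config × (ℕ × ℕ × ℕ) => z.2 := Primrec.snd
  have hq : Primrec fun z : Config × (ℕ × ℕ × ℕ) => z.2.1 := Primrec.fst.comp hv
  have hs : Primrec fun z : Config × (ℕ × ℕ × ℕ) => z.2.2.1 :=
    Primrec.fst.comp (Primrec.snd.comp hv)
  have hm : Primrec fun z : Config × (ℕ × ℕ × ℕ) => z.2.2.2 :=
    Primrec.snd.comp (Primrec.snd.comp hv)
  have hl : Primrec fun z : Config × (ℕ × ℕ × ℕ) => z.1.2.1 :=
    Primrec.fst.comp (Primrec.snd.comp hc)
  have hr : Primrec fun z : Config × (ℕ × ℕ × ℕ) => z.1.2.2.tail :=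
    Primrec.list_tail.comp (Primrec.snd.comp (Primrec.snd.comp hc))
  have e1 : Primrec fun z : Config × (ℕ × ℕ × ℕ) =>
      (z.2.1, z.1.2.1, z.2.2.1 :: z.1.2.2.tail) :=
    Primrec.pair hq (Primrec.pair hl (Primrec.list_cons.comp hs hr))
  have e2 : Primrec fun z : Config × (ℕ × ℕ × ℕ) =>
      (z.2.1, z.1.2.1.tail, z.1.2.1.headD 0 :: z.2.2.1 :: z.1.2.2.tail) :=
    Primrec.pair hq (Primrec.pair (Primrec.list_tail.comp hl)
      (Primrec.list_cons.comp (primrec_headD.comp hl) (Primrec.list_cons.comp hs hr)))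
  have e3 : Primrec fun z : Config × (ℕ × ℕ × ℕ) =>
      (z.2.1, z.2.2.1 :: z.1.2.1, z.1.2.2.tail) :=
    Primrec.pair hq (Primrec.pair (Primrec.list_cons.comp hs hl) hr)
  exact Primrec.ite (Primrec.eq.comp hm (Primrec.const 0)) e1
    (Primrec.ite (Primrec.eq.comp hm (Primrec.const 1)) e2 e3)

theorem primrec_step : Primrec₂ step := by
  have hc : Primrec fun z : Machine × Config => z.2 := Primrec.snd
  have hkey : Primrec fun z : Machine × Config => (z.2.1, z.2.2.2.headD 0) :=
    Primrec.pair (Primrec.fst.comp Primrec.snd)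
      (primrec_headD.comp (Primrec.snd.comp (Primrec.snd.comp Primrec.snd)))
  have htab : Primrec fun z : Machine × Config => z.1.2 := Primrec.snd.comp Primrec.fst
  have hlook : Primrec fun z : Machine × Config =>
      z.1.2.lookup (z.2.1, z.2.2.2.headD 0) := by
    refine (Primrec.listLookup.comp hkey htab).of_eq ?_
    intro z
    congr 1
    exact lawful_beq_subsingleton _ _
  have hsome : Primrec₂ fun (z : Machine × Config) (v : ℕ × ℕ × ℕ) =>
      stepSome z.2 v :=
    primrec_stepSome.comp (Primrec.pair (Primrec.snd.comp Primrec.fst) Primrec.snd)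
  have := Primrec.option_casesOn hlook hc hsome
  refine Primrec.of_eq this ?_
  rintro ⟨M, c⟩
  show _ = step M c
  rw [step_eq]

/-- indicator that the machine is in a halting state after `j` steps -/
def ind (M : Machine) (w : List ℕ) (j : ℕ) : ℕ :=
  if ((step M)^[j] (0, [], w)).1 ∈ M.1 then 1 else 0

theorem primrec_ind : Primrec fun z : (Machine × List ℕ) × ℕ => ind z.1.1 z.1.2 z.2 := by
  have hrun : Primrec fun z : (Machine × List ℕ) × ℕ =>
      (step z.1.1)^[z.2] ((0, [], z.1.2) : Config) := by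
    refine Primrec.nat_iterate Primrec.snd ?_ ?_
    · exact Primrec.pair (Primrec.const 0)
        (Primrec.pair (Primrec.const []) (Primrec.snd.comp Primrec.fst))
    · exact primrec_step.comp (Primrec.fst.comp (Primrec.fst.comp Primrec.fst)) Primrec.snd
  have hmem : PrimrecRel fun (L : List ℕ) (b : ℕ) => b ∈ L := by
    have := PrimrecRel.exists_mem_list (R := fun a b : ℕ => a = b) Primrec.eq
    refine this.of_eq ?_
    intro L b
    constructor
    · rintro ⟨a, ha, rfl⟩; exact ha
    · intro h; exact ⟨b, h, rfl⟩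
  have hp : PrimrecPred fun z : (Machine × List ℕ) × ℕ =>
      ((step z.1.1)^[z.2] ((0, [], z.1.2) : Config)).1 ∈ z.1.1.1 :=
    hmem.comp (Primrec.fst.comp (Primrec.fst.comp Primrec.fst)) (Primrec.fst.comp hrun)
  exact Primrec.ite hp (Primrec.const 1) (Primrec.const 0)

/-- numerator of the `K`-th partial sum of the amplitude -/
def num (M : Machine) (w : List ℕ) (K : ℕ) : ℕ :=
  Nat.rec 0 (fun k acc => 2 * acc + ind M w k) K

theorem num_zero (M : Machine) (w : List ℕ) : num M w 0 = 0 := rfl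

theorem num_succ (M : Machine) (w : List ℕ) (K : ℕ) :
    num M w (K + 1) = 2 * num M w K + ind M w K := rfl

theorem primrec_num : Primrec fun z : (Machine × List ℕ) × ℕ => num z.1.1 z.1.2 z.2 := by
  refine (Primrec.nat_rec' (f := fun z : (Machine × List ℕ) × ℕ => z.2)
    (g := fun _ => 0)
    (h := fun z p => 2 * p.2 + ind z.1.1 z.1.2 p.1) Primrec.snd (Primrec.const 0) ?_)
  refine Primrec.nat_add.comp (Primrec.nat_mul.comp (Primrec.const 2)
    (Primrec.snd.comp Primrec.snd)) ?_
  exact primrec_ind.comp (Primrec.pair (Primrec.fst.comp Primrec.fst)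
    (Primrec.fst.comp Primrec.snd))

end Vale.Agent.P113
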