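import Vale.Agent.P113.Fluid

namespace Vale.Agent.P113

open Set MeasureTheory

theorem exists_cell_rep (y : T3) : ∃ x ∈ Icc (0 : R3) 1, proj x = y := by
  have h : ∀ i, ∃ t : ℝ, t ∈ Icc (0 : ℝ) 1 ∧ (t : AddCircle (1 : ℝ)) = y i := by
    intro i
    obtain ⟨s, hs⟩ := QuotientAddGroup.mk_surjective (y i)
    refine ⟨Int.fract s, ⟨Int.fract_nonneg s, (Int.fract_lt_one s).le⟩, ?_⟩
    rw [← hs]
    have h1 : Int.fract s = s + (-⌊s⌋ : ℤ) • (1 : ℝ) := by
      have : Int.fract s = s - ⌊s⌋ := rfl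
      rw [this, zsmul_eq_mul, mul_one]
      push_cast
      ring
    rw [h1]
    simp
  choose t ht hty using h
  exact ⟨t, ⟨fun i => (ht i).1, fun i => (ht i).2⟩, funext hty⟩

theorem cell_subset_closure : Icc (0 : R3) 1 ⊆ closure (interior (Icc (0 : R3) 1)) := by
  have h : Icc (0 : R3) 1 = Set.pi univ fun i => Icc ((0 : R3) i) ((1 : R3) i) :=
    (Set.pi_univ_Icc _ _).symm
  rw [h, interior_pi_set finite_univ, closure_pi_set]
  refine Set.pi_mono fun i _ => ?_
  rw [interior_Icc, closure_Ioo (by simp)]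

/-- Spatial part of the energy estimate. -/
theorem spatial_estimate {ν : ℝ} (hν : 0 < ν) (V : Fin 3 → R3 → ℝ) (c : R3) (q : R3 → ℝ)
    (D : Fin 3 → R3 → ℝ)
    (hV : ∀ j, ContDiff ℝ 2 (V j)) (hq : ContDiff ℝ 1 q)
    (hVp : ∀ i j x, V j (x + Pi.single i 1) = V j x)
    (hqp : ∀ i x, q (x + Pi.single i 1) = q x)
    (hdiv : ∀ x, ∑ i, pd i (V i) x = 0)
    (hD : ∀ j x, D j x = -(∑ i, V i x * pd i (V j) x) - pd j q x
        + ν * ∑ i, pd i (pd i (V j)) x) :
    ∫ x in Icc (0 : R3) 1, ∑ j, 2 * ((V j x - c j) * D j x) ≤ 0 := by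
  set Φ : Fin 3 → R3 → ℝ := fun i y => -(V i y * (∑ j, (V j y - c j) * (V j y - c j))
      * (1 / 2)) - (V i y - c i) * q y + ν * ∑ j, (V j y - c j) * pd i (V j) y with hΦ
  have hV1 : ∀ j, ContDiff ℝ 1 (V j) := fun j => (hV j).of_le (by norm_num)
  have hΦc : ∀ i, ContDiff ℝ 1 (Φ i) := by
    intro i
    refine ContDiff.add (ContDiff.sub ?_ ?_) ?_
    · refine ((((hV1 i).mul (ContDiff.sum fun j _ => ?_))).mul contDiff_const).neg
      exact ((hV1 j).sub contDiff_const).mul ((hV1 j).sub contDiff_const)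
    · exact ((hV1 i).sub contDiff_const).mul hq
    · refine contDiff_const.mul (ContDiff.sum fun j _ => ?_)
      exact ((hV1 j).sub contDiff_const).mul (pd_contDiff (hV j))
  have hper : ∀ i x, Φ i (x + Pi.single i 1) = Φ i x := by
    intro i x
    have hPp : ∀ j, pd i (V j) (x + Pi.single i 1) = pd i (V j) x := by
      intro j
      unfold pd
      have : (fun y => V j (y + Pi.single i 1)) = V j := by
        funext y
        exact hVp i j y
      rw [← fderiv_comp_add_right, this]
    simp only [hΦ, hVp, hPp, hqp]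
  have hint0 := integral_div_periodic Φ hΦc hper
  have hpt : ∀ x, (∑ j, 2 * ((V j x - c j) * D j x)) = 2 * (∑ i, pd i (Φ i) x) -
      2 * (ν * ∑ i, ∑ j, (pd i (V j) x) ^ 2) := by
    intro x
    have hen := energy_identity ν V c q hV hq hdiv x
    rw [← Finset.mul_sum]
    have : (∑ j, (V j x - c j) * D j x) = ∑ j, (V j x - c j) *
        (-(∑ i, V i x * pd i (V j) x) - pd j q x + ν * ∑ i, pd i (pd i (V j)) x) := by
      refine Finset.sum_congr rfl fun j _ => ?_
      rw [hD]
    rw [this, hen]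
    ring
  have hdc : Continuous fun x => 2 * ∑ i, pd i (Φ i) x := by
    refine continuous_const.mul (continuous_finsetSum _ fun i _ => ?_)
    exact ((hΦc i).continuous_fderiv (by norm_num)).clm_apply continuous_const
  have hsc : Continuous fun x => 2 * (ν * ∑ i, ∑ j, (pd i (V j) x) ^ 2) := by
    refine continuous_const.mul (continuous_const.mul (continuous_finsetSum _ fun i _ =>
      continuous_finsetSum _ fun j _ => ?_))
    exact (pd_contDiff (hV j)).continuous.pow 2
  have e1 : ∫ x in Icc (0 : R3) 1, (∑ j, 2 * ((V j x - c j) * D j x)) =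
      2 * (∫ x in Icc (0 : R3) 1, ∑ i, pd i (Φ i) x)
      - 2 * ∫ x in Icc (0 : R3) 1, ν * ∑ i, ∑ j, (pd i (V j) x) ^ 2 := by
    simp_rw [hpt]
    rw [← integral_const_mul, ← integral_const_mul]
    exact integral_sub hdc.integrableOn_Icc hsc.integrableOn_Icc
  rw [e1, hint0]
  have : 0 ≤ ∫ x in Icc (0 : R3) 1, ν * ∑ i, ∑ j, (pd i (V j) x) ^ 2 := by
    apply integral_nonneg
    intro x
    positivity
  linarith

/-- Time part of the energy estimate. -/
theorem time_estimate {T : ℝ} (E g : ℝ → R3 → ℝ)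
    (hg : ContinuousOn (fun z : ℝ × R3 => g z.1 z.2) (Icc 0 T ×ˢ univ))
    (hE : ∀ x, ContinuousOn (fun s => E s x) (Icc 0 T))
    (hd : ∀ x, ∀ s ∈ Ioo 0 T, HasDerivAt (fun s => E s x) (g s x) s)
    (h0 : ∀ x, E 0 x = 0)
    (hneg : ∀ s ∈ Icc 0 T, ∫ x in Icc (0 : R3) 1, g s x ≤ 0) :
    ∀ t ∈ Icc 0 T, ∫ x in Icc (0 : R3) 1, E t x ≤ 0 := by
  intro t ht
  have hsub : Icc 0 t ⊆ Icc 0 T := Icc_subset_Icc_right ht.2
  have hftc : ∀ x, ∫ s in (0 : ℝ)..t, g s x = E t x := by
    intro x
    have hix : IntervalIntegrable (fun s => g s x) volume 0 t := by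
      apply ContinuousOn.intervalIntegrable
      rw [uIcc_of_le ht.1]
      have hcs : ContinuousOn (fun s : ℝ => (s, x)) (Icc 0 t) := by fun_prop
      exact hg.comp hcs (fun s hs => ⟨hsub hs, mem_univ _⟩)
    have := intervalIntegral.integral_eq_sub_of_hasDerivAt_of_le ht.1 ((hE x).mono hsub)
      (fun s hs => hd x s ⟨hs.1, hs.2.trans_le ht.2⟩) hix
    rw [this, h0, sub_zero]
  have hswap : ∫ x in Icc (0 : R3) 1, ∫ s in Ioc (0 : ℝ) t, g s x =
      ∫ s in Ioc (0 : ℝ) t, ∫ x in Icc (0 : R3) 1, g s x := by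
    apply integral_integral_swap (f := fun (x : R3) (s : ℝ) => g s x)
    rw [Measure.prod_restrict]
    have hK : IsCompact (Icc (0 : R3) 1 ×ˢ Icc (0 : ℝ) t) := isCompact_Icc.prod isCompact_Icc
    have hcK : ContinuousOn (fun z : R3 × ℝ => g z.2 z.1) (Icc (0 : R3) 1 ×ˢ Icc (0 : ℝ) t) := by
      have hsw : ContinuousOn (fun z : R3 × ℝ => (z.2, z.1)) (Icc (0 : R3) 1 ×ˢ Icc (0 : ℝ) t) :=
        by fun_prop
      exact hg.comp hsw (fun z hz => ⟨hsub hz.2, mem_univ _⟩)
    have hi : IntegrableOn (fun z : R3 × ℝ => g z.2 z.1) (Icc (0 : R3) 1 ×ˢ Icc (0 : ℝ) t)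
        (volume.prod volume) := hcK.integrableOn_compact hK
    exact hi.mono_set (Set.prod_mono subset_rfl Ioc_subset_Icc_self)
  have e : ∫ x in Icc (0 : R3) 1, E t x =
      ∫ s in Ioc (0 : ℝ) t, ∫ x in Icc (0 : R3) 1, g s x := by
    rw [← hswap]
    congr 1
    funext x
    rw [← hftc x, intervalIntegral.integral_of_le ht.1]
  rw [e]
  apply setIntegral_nonpos measurableSet_Ioc
  intro s hs
  exact hneg s ⟨hs.1.le, hs.2.trans ht.2⟩

theorem zero_of_integral {φ : R3 → ℝ} (hc : Continuous φ) (hnn : ∀ x, 0 ≤ φ x)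
    (h : ∫ x in Icc (0 : R3) 1, φ x ≤ 0) : ∀ x ∈ Icc (0 : R3) 1, φ x = 0 := by
  have hz : ∫ x in Icc (0 : R3) 1, φ x = 0 := le_antisymm h (integral_nonneg hnn)
  have hae := (integral_eq_zero_iff_of_nonneg (μ := volume.restrict (Icc (0 : R3) 1))
    (fun x => hnn x) hc.integrableOn_Icc).1 hz
  have heq := Measure.eqOn_of_ae_eq hae hc.continuousOn continuousOn_const
    cell_subset_closure
  exact fun x hx => heq hx

/-- the velocity of a classical solution with a spatially constant force -/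
theorem velocity_unique {ν T : ℝ} (hν : 0 < ν) (hT : 0 < T) {f v : ℝ → T3 → R3}
    {q : ℝ → T3 → ℝ} (F C : ℝ → R3) (hf : ∀ t ∈ Icc 0 T, ∀ x, f t x = F t)
    (hF : ContinuousOn F (Icc 0 T)) (hC0 : C 0 = 0)
    (hC : ∀ t ∈ Icc 0 T, ∀ j, HasDerivWithinAt (fun s => C s j) (F t j) (Icc 0 T) t)
    (h : ClassicalSolution ν T f v q) :
    ∀ t ∈ Icc 0 T, ∀ y, v t y = C t := by
  have hV : ∀ t ∈ Icc 0 T, ∀ x j, HasDerivWithinAt (fun s => v s (proj x) j)
      (td (Icc 0 T) (comp v j) t x) (Icc 0 T) t := fun t ht x j =>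
    (h.time_diff j x t ht).hasDerivWithinAt
  have hmain : ∀ t ∈ Icc 0 T, ∫ x in Icc (0 : R3) 1, ∑ j, (v t (proj x) j - C t j) ^ 2 ≤ 0 := by
    refine time_estimate (fun t x => ∑ j, (v t (proj x) j - C t j) ^ 2)
      (fun s x => ∑ j, 2 * ((v s (proj x) j - C s j) *
        (td (Icc 0 T) (comp v j) s x - F s j))) ?_ ?_ ?_ ?_ ?_
    · refine continuousOn_finsetSum _ fun j _ => ?_
      have h1 : ContinuousOn (fun z : ℝ × R3 => v z.1 (proj z.2) j) (Icc 0 T ×ˢ univ) :=
        h.cont_u j
      have hfst : ContinuousOn (fun z : ℝ × R3 => z.1) (Icc 0 T ×ˢ (univ : Set R3)) :=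
        continuous_fst.continuousOn
      have hmaps : MapsTo (fun z : ℝ × R3 => z.1) (Icc 0 T ×ˢ (univ : Set R3)) (Icc 0 T) :=
        fun z hz => hz.1
      have hCc : ContinuousOn (fun t => C t j) (Icc 0 T) :=
        fun t ht => (hC t ht j).continuousWithinAt
      have h2 : ContinuousOn (fun z : ℝ × R3 => C z.1 j) (Icc 0 T ×ˢ univ) :=
        hCc.comp hfst hmaps
      have h3 : ContinuousOn (fun z : ℝ × R3 => F z.1 j) (Icc 0 T ×ˢ univ) :=
        (continuous_apply j).comp_continuousOn (hF.comp hfst hmaps)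
      have h4 : ContinuousOn (fun z : ℝ × R3 =>
          td (Icc 0 T) (comp v j) z.1 z.2) (Icc 0 T ×ˢ univ) := h.cont_time j
      exact continuousOn_const.mul ((h1.sub h2).mul (h4.sub h3))
    · intro x
      refine continuousOn_finsetSum _ fun j _ => ?_
      refine ContinuousOn.pow ?_ 2
      exact fun s hs => ((hV s hs x j).continuousWithinAt).sub
        ((hC s hs j).continuousWithinAt)
    · intro x s hs
      have hsT : s ∈ Icc 0 T := ⟨hs.1.le, hs.2.le⟩
      have hnhds : Icc 0 T ∈ nhds s := Icc_mem_nhds hs.1 hs.2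
      refine HasDerivAt.fun_sum fun j _ => ?_
      have h1 : HasDerivAt (fun s => v s (proj x) j - C s j)
          (td (Icc 0 T) (comp v j) s x - F s j) s :=
        ((hV s hsT x j).hasDerivAt hnhds).sub ((hC s hsT j).hasDerivAt hnhds)
      have h2 := h1.fun_pow 2
      refine h2.congr_deriv ?_
      simp
      ring
    · intro x
      have h0 : ∀ j, v 0 (proj x) j - C 0 j = 0 := by
        intro j
        rw [h.initial, hC0]
        simp
      simp [h0]
    · intro s hs
      refine spatial_estimate hν (fun j x => v s (proj x) j) (C s) (fun x => q s (proj x))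
        (fun j x => td (Icc 0 T) (comp v j) s x - F s j)
        (fun j => h.space_diff j s hs) (h.pressure_diff s hs) ?_ ?_ (h.div_free s hs) ?_
      · intro i j x
        simp only [proj_add_single]
      · intro i x
        simp only [proj_add_single]
      · intro j x
        have hm : td (Icc 0 T) (comp v j) s x + ∑ i, v s (proj x) i *
            pd i (fun y => v s (proj y) j) x = - pd j (fun y => q s (proj y)) x
            + ν * ∑ i, pd i (pd i (fun y => v s (proj y) j)) x + f s (proj x) j :=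
          h.momentum j s hs x
        rw [hf s hs] at hm
        linarith
  intro t ht y
  have hc : Continuous fun x : R3 => ∑ j, (v t (proj x) j - C t j) ^ 2 :=
    continuous_finsetSum _ fun j _ => (((h.space_diff j t ht).continuous).sub
      continuous_const).pow 2
  obtain ⟨x, hx, rfl⟩ := exists_cell_rep y
  have hx0 := zero_of_integral hc (fun x => by positivity) (hmain t ht) x hx
  funext j
  have := (Finset.sum_eq_zero_iff_of_nonneg
    (fun j _ => sq_nonneg (v t (proj x) j - C t j))).1 hx0 j (Finset.mem_univ j)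
  have h2 : v t (proj x) j - C t j = 0 := pow_eq_zero_iff (two_ne_zero) |>.1 this
  linarith

/-- the pressure of a classical solution with a spatially constant force -/
theorem pressure_unique {ν T : ℝ} (hT : 0 < T) {f v : ℝ → T3 → R3}
    {q : ℝ → T3 → ℝ} (F C : ℝ → R3) (hf : ∀ t ∈ Icc 0 T, ∀ x, f t x = F t)
    (hC : ∀ t ∈ Icc 0 T, ∀ j, HasDerivWithinAt (fun s => C s j) (F t j) (Icc 0 T) t)
    (h : ClassicalSolution ν T f v q) (hvel : ∀ t ∈ Icc 0 T, ∀ y, v t y = C t) :
    ∀ t ∈ Icc 0 T, ∀ y, q t y = 0 := by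
  intro t ht
  have hVt : ∀ j, comp v j t = fun _ : R3 => C t j := by
    intro j
    funext x
    show v t (proj x) j = C t j
    rw [hvel t ht]
  have hpd : ∀ x j, pd j (lift q t) x = 0 := by
    intro x j
    have hm := h.momentum j t ht x
    have h1 : td (Icc 0 T) (comp v j) t x = F t j := by
      have he : EqOn (fun s => comp v j s x) (fun s => C s j) (Icc 0 T) := fun s hs => by
        show v s (proj x) j = C s j
        rw [hvel s hs]
      show derivWithin (fun s => comp v j s x) (Icc 0 T) t = F t j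
      rw [derivWithin_congr he (he ht)]
      exact (hC t ht j).derivWithin (uniqueDiffOn_Icc hT t ht)
    have h2 : ∀ i, pd i (comp v j t) x = 0 := by
      intro i
      rw [hVt j, pd_const]
    have h3 : ∀ i, pd i (pd i (comp v j t)) x = 0 := by
      intro i
      have : pd i (comp v j t) = fun _ => 0 := by
        funext z
        rw [hVt j, pd_const]
      rw [this, pd_const]
    have h4 : comp f j t x = F t j := by
      show f t (proj x) j = F t j
      rw [hf t ht]
    rw [h1, h4] at hm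
    simp only [h2, h3, mul_zero, Finset.sum_const_zero, add_zero] at hm
    linarith
  have hq1 : ContDiff ℝ 1 (lift q t) := h.pressure_diff t ht
  have hfd : ∀ x, fderiv ℝ (lift q t) x = 0 := by
    intro x
    ext z
    have hz : z = ∑ j, z j • (Pi.single j (1 : ℝ) : R3) := by
      funext k
      simp [Finset.sum_apply, Pi.single_apply]
    rw [hz, map_sum]
    simp only [map_smul]
    have : ∀ j, fderiv ℝ (lift q t) x (Pi.single j 1) = 0 := fun j => hpd x j
    simp [this]
  have hconst : ∀ x y : R3, q t (proj x) = q t (proj y) := fun x y =>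
    is_const_of_fderiv_eq_zero (hq1.differentiable (by norm_num)) hfd x y
  have hmean := h.mean_zero t ht
  have : lift q t = fun _ => q t (proj 0) := funext fun x => hconst x 0
  rw [this, setIntegral_const] at hmean
  have hvol : volume.real (Icc (0 : R3) 1) = 1 := by
    rw [Measure.real, Real.volume_Icc_pi]
    simp
  rw [hvol] at hmean
  intro y
  obtain ⟨x, _, rfl⟩ := exists_cell_rep y
  rw [hconst x 0]
  simpa using hmean

end Vale.Agent.P113
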