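import Vale.Agent.P113.Program
import Vale.Agent.P113.Unique

namespace Vale.Agent.P113

open Set MeasureTheory

/-- spatially constant field in the first coordinate direction -/
noncomputable def uni (c : ℝ → ℝ) : ℝ → T3 → R3 := fun t _ => Pi.single 0 (c t)

theorem smooth_uni {c : ℝ → ℝ} (hc : ContDiff ℝ (⊤ : ℕ∞) c) (j : Fin 3) :
    SmoothOn (comp (uni c) j) := by
  unfold SmoothOn
  apply ContDiff.contDiffOn
  by_cases h : j = 0
  · subst h
    have : (fun z : ℝ × R3 => comp (uni c) 0 z.1 z.2) = fun z => c z.1 := by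
      funext z
      simp [comp, uni]
    rw [this]
    exact hc.comp contDiff_fst
  · have : (fun z : ℝ × R3 => comp (uni c) j z.1 z.2) = fun z => 0 := by
      funext z
      simp [comp, uni, h]
    rw [this]
    exact contDiff_const

theorem smooth_zero : SmoothOn (lift fun _ _ => 0) := by
  unfold SmoothOn
  exact contDiff_const.contDiffOn

theorem mixed_nil (φ : ℝ → R3 → ℝ) : mixed [] φ = φ := rfl

theorem mixed_none (l : List (Option (Fin 3))) (φ : ℝ → R3 → ℝ) :
    mixed (none :: l) φ = td (Ici 0) (mixed l φ) := rfl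

theorem mixed_some (i : Fin 3) (l : List (Option (Fin 3))) (φ : ℝ → R3 → ℝ) :
    mixed (some i :: l) φ = fun t => pd i (mixed l φ t) := rfl

/-! ### mixed derivatives of spatially constant fields -/

theorem mixed_time (F : ℕ → ℝ → ℝ) (hF : ∀ k t, HasDerivAt (F k) (F (k + 1) t) t)
    (φ : ℝ → R3 → ℝ) (hφ : ∀ t x, φ t x = F 0 t) (l : List (Option (Fin 3))) :
    ∀ t, 0 ≤ t → ∀ x, mixed l φ t x = if (∀ o ∈ l, o = none) then F l.length t else 0 := by
  induction l with
  | nil => intro t _ x; simp [mixed_nil, hφ]
  | cons o l ih =>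
    intro t ht x
    rcases o with _ | i
    · show derivWithin (fun s => mixed l φ s x) (Ici 0) t = _
      have he : EqOn (fun s => mixed l φ s x)
          (fun s => if (∀ o ∈ l, o = none) then F l.length s else 0) (Ici 0) := fun s hs =>
        ih s hs x
      rw [derivWithin_congr he (he ht)]
      by_cases hl : ∀ o ∈ l, o = none
      · have hl' : ∀ o ∈ (none :: l : List (Option (Fin 3))), o = none := by
          intro o ho
          rcases List.mem_cons.1 ho with rfl | ho
          · rfl
          · exact hl o ho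
        rw [if_pos hl']
        simp only [if_pos hl]
        exact (hF l.length t).hasDerivWithinAt.derivWithin (uniqueDiffOn_Ici 0 t ht)
      · have hl' : ¬ ∀ o ∈ (none :: l : List (Option (Fin 3))), o = none := by
          intro h
          exact hl fun o ho => h o (List.mem_cons_of_mem _ ho)
        rw [if_neg hl']
        simp only [if_neg hl]
        exact (hasDerivWithinAt_const t (Ici 0) (0 : ℝ)).derivWithin (uniqueDiffOn_Ici 0 t ht)
    · show pd i (mixed l φ t) x = _
      have hl' : ¬ ∀ o ∈ (some i :: l : List (Option (Fin 3))), o = none := by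
        intro h
        exact absurd (h (some i) (by simp)) (by simp)
      rw [if_neg hl']
      have : mixed l φ t = fun _ => if (∀ o ∈ l, o = none) then F l.length t else 0 :=
        funext fun y => ih t ht y
      rw [this, pd_const]

/-! ### the compiler -/

theorem exists_answer_code : ∃ c : Nat.Partrec.Code, ∀ z : Inp,
    Encodable.encode (answer z) ∈ c.eval (Encodable.encode z) := by
  have h : Computable answer := primrec_answer.to_comp
  have h2 : Nat.Partrec fun n =>
      Part.bind (Encodable.decode (α := Inp) n) fun a => ((answer a : Part (ℕ × ℕ × ℕ))).map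
        Encodable.encode := h
  obtain ⟨c, hc⟩ := Nat.Partrec.Code.exists_code.1 h2
  refine ⟨c, fun z => ?_⟩
  rw [hc]
  simp

/-- the universal answering program -/
noncomputable def theCode : Nat.Partrec.Code := exists_answer_code.choose

theorem theCode_spec (z : Inp) :
    Encodable.encode (answer z) ∈ theCode.eval (Encodable.encode z) :=
  exists_answer_code.choose_spec z

/-- the force compiler -/
noncomputable def compiler (x : Machine × List ℕ) : Nat.Partrec.Code :=
  Nat.Partrec.Code.curry theCode (Encodable.encode x)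

theorem computable_compiler : Computable compiler :=
  (Nat.Partrec.Code.primrec₂_curry.comp (Primrec.const theCode) Primrec.encode).to_comp

theorem compiler_spec (x : Machine × List ℕ) (q : Query) :
    Encodable.encode (answer (x, q)) ∈ (compiler x).eval (Encodable.encode q) := by
  unfold compiler
  rw [Nat.Partrec.Code.eval_curry, ← Encodable.encode_prod_val]
  exact theCode_spec (x, q)

theorem computes_force (M : Machine) (w : List ℕ) :
    Computes (compiler (M, w)) (uni fun t => amp M w * prof t) := by
  intro j l a b x₀ x₁ x₂ n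
  refine ⟨answer ((M, w), (j, l, (a, b), (x₀, x₁, x₂), n)), compiler_spec _ _, ?_⟩
  have ht : (0 : ℝ) ≤ (a : ℝ) / (b + 1) := by positivity
  have hz : ratOf (0, 0, 0) = 0 := by simp [ratOf]
  have hn : (0 : ℝ) ≤ 1 / ((n : ℝ) + 1) := by positivity
  by_cases hj : j = 0
  · subst hj
    have hm := mixed_time (fun k t => amp M w * profD k t)
      (fun k t => (hasDerivAt_profD k t).const_mul _)
      (comp (uni fun t => amp M w * prof t) 0)
      (fun t x => by simp [comp, uni, profD_zero]) l _ ht ![ratOf x₀, ratOf x₁, ratOf x₂]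
    rw [hm]
    by_cases hl : ∀ o ∈ l, o = none
    · rw [if_pos hl]
      by_cases hab : a < b + 1
      · have hg : Good ((M, w), ((0 : Fin 3), l, (a, b), (x₀, x₁, x₂), n)) := ⟨rfl, hl, hab⟩
        rw [answer, if_pos hg]
        exact core_correct ((M, w), ((0 : Fin 3), l, (a, b), (x₀, x₁, x₂), n)) hab
      · have hg : ¬ Good ((M, w), ((0 : Fin 3), l, (a, b), (x₀, x₁, x₂), n)) :=
          fun h => hab h.2.2
        rw [answer, if_neg hg, hz]
        have h1 : (1 : ℝ) ≤ (a : ℝ) / (b + 1) := by
          rw [le_div_iff₀ (by positivity)]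
          have : b + 1 ≤ a := by omega
          have h2 : ((b + 1 : ℕ) : ℝ) ≤ a := by exact_mod_cast this
          push_cast at h2
          linarith
        rw [profD_of_one_le _ h1]
        simpa using hn
    · have hg : ¬ Good ((M, w), ((0 : Fin 3), l, (a, b), (x₀, x₁, x₂), n)) :=
        fun h => hl h.2.1
      rw [if_neg hl, answer, if_neg hg, hz]
      simpa using hn
  · have hg : ¬ Good ((M, w), (j, l, (a, b), (x₀, x₁, x₂), n)) := fun h => hj h.1
    have hm := mixed_time (fun _ _ => 0) (fun k t => hasDerivAt_const t 0)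
      (comp (uni fun t => amp M w * prof t) j)
      (fun t x => by simp [comp, uni, hj]) l _ ht ![ratOf x₀, ratOf x₁, ratOf x₂]
    rw [hm, answer, if_neg hg, hz]
    simpa using hn

/-! ### the velocity and the trajectory -/

/-- first primitive of the profile -/
noncomputable def prim1 (t : ℝ) : ℝ := ∫ s in (0 : ℝ)..t, prof s

theorem prof_continuous : Continuous prof := (contDiff_prof (n := 0)).continuous

theorem hasDerivAt_prim1 (t : ℝ) : HasDerivAt prim1 (prof t) t :=
  intervalIntegral.integral_hasDerivAt_right (prof_continuous.intervalIntegrable _ _)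
    (prof_continuous.stronglyMeasurableAtFilter _ _) prof_continuous.continuousAt

theorem contDiff_prim1 : ContDiff ℝ (⊤ : ℕ∞) prim1 := by
  rw [contDiff_infty_iff_deriv]
  refine ⟨fun t => (hasDerivAt_prim1 t).differentiableAt, ?_⟩
  have : deriv prim1 = prof := funext fun t => (hasDerivAt_prim1 t).deriv
  rw [this]
  exact contDiff_prof

theorem prim1_continuous : Continuous prim1 := contDiff_prim1.continuous

theorem prim1_zero : prim1 0 = 0 := by simp [prim1]

/-- second primitive of the profile -/
noncomputable def prim2 (t : ℝ) : ℝ := ∫ s in (0 : ℝ)..t, prim1 s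

theorem hasDerivAt_prim2 (t : ℝ) : HasDerivAt prim2 (prim1 t) t :=
  intervalIntegral.integral_hasDerivAt_right (prim1_continuous.intervalIntegrable _ _)
    (prim1_continuous.stronglyMeasurableAtFilter _ _) prim1_continuous.continuousAt

theorem prim2_zero : prim2 0 = 0 := by simp [prim2]

theorem prim2_continuous : Continuous prim2 :=
  continuous_iff_continuousAt.2 fun t => (hasDerivAt_prim2 t).continuousAt

theorem prim1_pos {t : ℝ} (h0 : 0 < t) (h1 : t ≤ 1) : 0 < prim1 t := by
  have hm : StrictMonoOn prim1 (Icc 0 1) := by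
    apply strictMonoOn_of_deriv_pos (convex_Icc 0 1) prim1_continuous.continuousOn
    intro x hx
    rw [interior_Icc] at hx
    rw [(hasDerivAt_prim1 x).deriv]
    exact prof_pos hx.2
  have := hm (left_mem_Icc.2 zero_le_one) ⟨h0.le, h1⟩ h0
  rwa [prim1_zero] at this

theorem prim2_pos {t : ℝ} (h0 : 0 < t) (h1 : t ≤ 1) : 0 < prim2 t := by
  have hm : StrictMonoOn prim2 (Icc 0 1) := by
    apply strictMonoOn_of_deriv_pos (convex_Icc 0 1) prim2_continuous.continuousOn
    intro x hx
    rw [interior_Icc] at hx
    rw [(hasDerivAt_prim2 x).deriv]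
    exact prim1_pos hx.1 hx.2.le
  have := hm (left_mem_Icc.2 zero_le_one) ⟨h0.le, h1⟩ h0
  rwa [prim2_zero] at this

/-- the target set -/
def target : Set T3 := (fun y : T3 => y 0) ⁻¹' ((fun s : ℝ => (s : AddCircle (1 : ℝ))) '' Ioo 0 (1 / 2))

theorem isOpen_target : IsOpen target := by
  apply IsOpen.preimage (continuous_apply 0)
  exact QuotientAddGroup.isOpenMap_coe _ isOpen_Ioo

theorem exists_time {r : ℝ} (hr : 0 < r) : ∃ t, 0 ≤ t ∧ 0 < r * prim2 t ∧ r * prim2 t < 1 / 2 := by
  have hc : ContinuousAt (fun t => r * prim2 t) 0 :=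
    (continuous_const.mul prim2_continuous).continuousAt
  have h0 : r * prim2 0 < 1 / 2 := by rw [prim2_zero]; norm_num
  have hev := hc.eventually (Iio_mem_nhds h0)
  obtain ⟨ε, hε, hball⟩ := Metric.eventually_nhds_iff.1 hev
  refine ⟨min (ε / 2) 1, by positivity, ?_, ?_⟩
  · exact mul_pos hr (prim2_pos (by positivity) (min_le_right _ _))
  · apply hball
    rw [Real.dist_eq, sub_zero, abs_of_nonneg (by positivity)]
    exact (min_le_left _ _).trans_lt (by linarith)

theorem target_iff (r : ℝ) (hr : 0 ≤ r) :
    (∃ t, 0 ≤ t ∧ proj (Pi.single 0 (r * prim2 t)) ∈ target) ↔ 0 < r := by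
  constructor
  · rintro ⟨t, _, s, hs, hst⟩
    by_contra hn
    have h0 : r = 0 := le_antisymm (not_lt.1 hn) hr
    have hst' : (s : AddCircle (1 : ℝ)) = 0 := by
      have : (s : AddCircle (1 : ℝ)) = (proj (Pi.single 0 (r * prim2 t)) 0) := hst
      rw [this, h0]
      simp [proj]
    rw [AddCircle.coe_eq_zero_iff] at hst'
    obtain ⟨n, hn⟩ := hst'
    simp only [zsmul_eq_mul, mul_one] at hn
    rw [← hn] at hs
    have h1 : (0 : ℝ) < n := hs.1
    have h2 : (n : ℝ) < 1 := hs.2.trans (by norm_num)
    have h1' : (0 : ℤ) < n := by exact_mod_cast h1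
    have h2' : n < (1 : ℤ) := by exact_mod_cast h2
    omega
  · intro h
    obtain ⟨t, ht, h1, h2⟩ := exists_time h
    refine ⟨t, ht, r * prim2 t, ⟨h1, h2⟩, ?_⟩
    simp [proj]

theorem hasDerivWithinAt_single {c : ℝ → ℝ} {c' t : ℝ} {s : Set ℝ}
    (h : HasDerivWithinAt c c' s t) (j : Fin 3) :
    HasDerivWithinAt (fun t => (Pi.single 0 (c t) : R3) j) ((Pi.single 0 c' : R3) j) s t := by
  by_cases hj : j = 0
  · subst hj; simpa using h
  · simpa [hj] using hasDerivWithinAt_const t s (0 : ℝ)

theorem continuous_single {c : ℝ → ℝ} (h : Continuous c) :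
    Continuous (fun t => (Pi.single 0 (c t) : R3)) := by
  rw [continuous_pi_iff]
  intro j
  by_cases hj : j = 0
  · subst hj; simpa using h
  · simpa [hj] using continuous_const

/-- the spatially constant solution -/
theorem uni_solution (ν : ℝ) {T : ℝ} (hT : 0 < T) {c C : ℝ → ℝ} (hc : Continuous c)
    (hC : ∀ t, HasDerivAt C (c t) t) (hC0 : C 0 = 0) :
    ClassicalSolution ν T (uni c) (uni C) (fun _ _ => 0) := by
  have hCc : Continuous C := continuous_iff_continuousAt.2 fun t => (hC t).continuousAt
  have hder : ∀ j, ∀ t ∈ Icc 0 T, ∀ x, td (Icc 0 T) (comp (uni C) j) t x =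
      (Pi.single 0 (c t) : R3) j := fun j t ht x =>
    (hasDerivWithinAt_single (hC t).hasDerivWithinAt j).derivWithin (uniqueDiffOn_Icc hT t ht)
  have hpd : ∀ (i j : Fin 3) (t : ℝ), pd i (comp (uni C) j t) = fun _ => 0 := by
    intro i j t
    funext x
    exact pd_const i _ x
  have hpd2 : ∀ (i k j : Fin 3) (t : ℝ), pd i (pd k (comp (uni C) j t)) = fun _ => 0 := by
    intro i k j t
    rw [hpd]
    funext x
    exact pd_const i _ x
  refine ⟨?_, ?_, ?_, ?_, ?_, ?_, ?_, ?_, ?_, ?_, ?_, ?_, ?_⟩
  · intro j x t _
    exact (hasDerivWithinAt_single (hC t).hasDerivWithinAt j).differentiableWithinAt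
  · intro j t _; exact contDiff_const
  · intro t _; exact contDiff_const
  · intro j
    exact (((continuous_apply j).comp (continuous_single hCc)).comp continuous_fst).continuousOn
  · intro j
    have : ContinuousOn (fun z : ℝ × R3 => (Pi.single 0 (c z.1) : R3) j) (Icc 0 T ×ˢ univ) :=
      (((continuous_apply j).comp (continuous_single hc)).comp continuous_fst).continuousOn
    refine this.congr ?_
    intro z hz
    exact hder j z.1 hz.1 z.2
  · intro i j
    simp only [hpd]
    exact continuousOn_const
  · intro i k j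
    simp only [hpd2]
    exact continuousOn_const
  · exact continuousOn_const
  · intro i
    have : (fun t => pd i (lift (fun _ _ => 0) t)) = fun _ _ => 0 := by
      funext t x
      exact pd_const i 0 x
    rw [this]
    exact continuousOn_const
  · intro t _; simp [lift]
  · intro x
    simp [uni, hC0]
  · intro t _ x
    simp only [hpd, Finset.sum_const_zero]
  · intro j t ht x
    have h4 : pd j (lift (fun _ _ => 0) t) x = 0 := pd_const j 0 x
    rw [hder j t ht x, h4]
    simp only [hpd2, hpd, mul_zero, Finset.sum_const_zero, pd_const]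
    simp [uni, comp]

theorem proj_add (x y : R3) : proj (x + y) = proj x + proj y := by
  funext i
  simp [proj]

theorem trajectory_unique {C : ℝ → ℝ} {X Y : ℝ → R3} {a : T3}
    (hX : IsTrajectory (uni C) a X) (hY : IsTrajectory (uni C) a Y) :
    ∀ t, 0 ≤ t → proj (Y t) = proj (X t) := by
  intro t ht
  have hd : ∀ j, ∀ s, 0 ≤ s → HasDerivWithinAt (fun s => Y s j - X s j) 0 (Ici 0) s := by
    intro j s hs
    have := (hY.2 j s hs).sub (hX.2 j s hs)
    simpa [uni] using! this
  have hj : ∀ j, Y t j - X t j = Y 0 j - X 0 j := by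
    intro j
    have hc : ContinuousOn (fun s => Y s j - X s j) (Icc 0 t) := fun s hs =>
      ((hd j s hs.1).continuousWithinAt).mono Icc_subset_Ici_self
    exact constant_of_has_deriv_right_zero hc
      (fun s hs => (hd j s hs.1).mono (Ici_subset_Ici.2 hs.1)) t ⟨ht, le_rfl⟩
  have h' : Y t = X t + (Y 0 - X 0) := by
    funext j
    have := hj j
    simp only [Pi.add_apply, Pi.sub_apply]
    linarith
  have h0 : proj (Y 0 - X 0) = 0 := by
    have e : proj (X 0 + (Y 0 - X 0)) = proj (X 0) + proj (Y 0 - X 0) := proj_add _ _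
    have e2 : X 0 + (Y 0 - X 0) = Y 0 := by abel
    rw [e2, hY.1, hX.1] at e
    simpa using e
  rw [h', proj_add, h0, add_zero]

end Vale.Agent.P113
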