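import Vale.Agent.P113.Approx

namespace Vale.Agent.P113

/-- queries: component, list of derivatives, time, point, accuracy -/
abbrev Query := Fin 3 × List (Option (Fin 3)) × (ℕ × ℕ) ×
  ((ℕ × ℕ × ℕ) × (ℕ × ℕ × ℕ) × (ℕ × ℕ × ℕ)) × ℕ

abbrev Inp := (Machine × List ℕ) × Query

def iK (z : Inp) : ℕ := z.2.2.1.length
def iA (z : Inp) : ℕ := z.2.2.2.1.2 + 1 - z.2.2.2.1.1
def iB (z : Inp) : ℕ := z.2.2.2.1.2 + 1
def iN (z : Inp) : ℕ := z.2.2.2.2.2
def iT (z : Inp) : List Term := derivTerms (iK z)
def iP (z : Inp) : ℕ := posPart (iA z) (iB z) (2 * iK z) (iT z)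
def iQ (z : Inp) : ℕ := negPart (iA z) (iB z) (2 * iK z) (iT z)
def iW (z : Inp) : ℕ := 2 * (iN z + 1) * (iP z + iQ z + 1)
def iR (z : Inp) : ℕ := num z.1.1 z.1.2 (iW z)
def iE (z : Inp) : ℕ := iB z * iB z * iW z
def iF (z : Inp) : ℕ := (iA z * iE z - iB z) ^ iE z
def iG (z : Inp) : ℕ := iA z ^ (2 * iK z) * 2 ^ iW z * (iA z * iE z) ^ iE z

/-- the answer in the essential case -/
def core (z : Inp) : ℕ × ℕ × ℕ :=
  (iP z * iR z * iF z, iQ z * iR z * iF z, iG z - 1)

def Good (z : Inp) : Prop :=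
  z.2.1 = 0 ∧ (∀ o ∈ z.2.2.1, o = none) ∧ z.2.2.2.1.1 < z.2.2.2.1.2 + 1

instance (z : Inp) : Decidable (Good z) := by unfold Good; infer_instance

def answer (z : Inp) : ℕ × ℕ × ℕ := if Good z then core z else (0, 0, 0)

/-! ### primitive recursiveness -/

theorem primrec_iK : Primrec iK :=
  Primrec.list_length.comp (Primrec.fst.comp (Primrec.snd.comp Primrec.snd))

theorem primrec_time1 : Primrec fun z : Inp => z.2.2.2.1.1 :=
  Primrec.fst.comp (Primrec.fst.comp (Primrec.snd.comp (Primrec.snd.comp Primrec.snd)))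

theorem primrec_time2 : Primrec fun z : Inp => z.2.2.2.1.2 :=
  Primrec.snd.comp (Primrec.fst.comp (Primrec.snd.comp (Primrec.snd.comp Primrec.snd)))

theorem primrec_iB : Primrec iB := Primrec.succ.comp primrec_time2

theorem primrec_iA : Primrec iA := Primrec.nat_sub.comp primrec_iB primrec_time1

theorem primrec_iN : Primrec iN :=
  Primrec.snd.comp (Primrec.snd.comp (Primrec.snd.comp (Primrec.snd.comp Primrec.snd)))

theorem primrec_dterm : Primrec dterm := by
  have hp : Primrec fun z : Term => z.1 := Primrec.fst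
  have hq : Primrec fun z : Term => z.2.1 := Primrec.fst.comp Primrec.snd
  have hm : Primrec fun z : Term => z.2.2 := Primrec.snd.comp Primrec.snd
  exact Primrec.list_cons.comp
    (Primrec.pair (Primrec.nat_mul.comp hp hm)
      (Primrec.pair (Primrec.nat_mul.comp hq hm) (Primrec.nat_add.comp hm (Primrec.const 1))))
    (Primrec.list_cons.comp
      (Primrec.pair hq (Primrec.pair hp (Primrec.nat_add.comp hm (Primrec.const 2))))
      (Primrec.const []))

theorem primrec_dstep : Primrec dstep :=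
  Primrec.list_flatMap Primrec.id (primrec_dterm.comp Primrec.snd)

theorem primrec_derivTerms : Primrec derivTerms :=
  Primrec.nat_rec₁ _ (primrec_dstep.comp Primrec.snd)

theorem primrec_iT : Primrec iT := primrec_derivTerms.comp primrec_iK

theorem primrec_two_iK : Primrec fun z : Inp => 2 * iK z :=
  Primrec.nat_mul.comp (Primrec.const 2) primrec_iK

theorem posPart_foldr (A B D : ℕ) (L : List Term) :
    posPart A B D L = L.foldr (fun y acc => y.1 * (B ^ y.2.2 * A ^ (D - y.2.2)) + acc) 0 := by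
  induction L with
  | nil => rfl
  | cons z L ih => simp [posPart, ih]

theorem negPart_foldr (A B D : ℕ) (L : List Term) :
    negPart A B D L = L.foldr (fun y acc => y.2.1 * (B ^ y.2.2 * A ^ (D - y.2.2)) + acc) 0 := by
  induction L with
  | nil => rfl
  | cons z L ih => simp [negPart, ih]

theorem primrec_pw : Primrec fun z : Inp × (Term × ℕ) =>
    iB z.1 ^ z.2.1.2.2 * iA z.1 ^ (2 * iK z.1 - z.2.1.2.2) := by
  have hm : Primrec fun z : Inp × (Term × ℕ) => z.2.1.2.2 :=
    Primrec.snd.comp (Primrec.snd.comp (Primrec.fst.comp Primrec.snd))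
  exact Primrec.nat_mul.comp
    (primrec_pow.comp (primrec_iB.comp Primrec.fst) hm)
    (primrec_pow.comp (primrec_iA.comp Primrec.fst)
      (Primrec.nat_sub.comp (primrec_two_iK.comp Primrec.fst) hm))

theorem primrec_iP : Primrec iP := by
  have h := Primrec.list_foldr (f := iT) (g := fun _ : Inp => 0)
    (h := fun z p => p.1.1 * (iB z ^ p.1.2.2 * iA z ^ (2 * iK z - p.1.2.2)) + p.2)
    primrec_iT (Primrec.const 0)
    (Primrec.nat_add.comp
      (Primrec.nat_mul.comp (Primrec.fst.comp (Primrec.fst.comp Primrec.snd)) primrec_pw)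
      (Primrec.snd.comp Primrec.snd))
  refine h.of_eq ?_
  intro z
  rw [iP, posPart_foldr]

theorem primrec_iQ : Primrec iQ := by
  have h := Primrec.list_foldr (f := iT) (g := fun _ : Inp => 0)
    (h := fun z p => p.1.2.1 * (iB z ^ p.1.2.2 * iA z ^ (2 * iK z - p.1.2.2)) + p.2)
    primrec_iT (Primrec.const 0)
    (Primrec.nat_add.comp
      (Primrec.nat_mul.comp
        (Primrec.fst.comp (Primrec.snd.comp (Primrec.fst.comp Primrec.snd))) primrec_pw)
      (Primrec.snd.comp Primrec.snd))
  refine h.of_eq ?_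
  intro z
  rw [iQ, negPart_foldr]

theorem primrec_iW : Primrec iW :=
  Primrec.nat_mul.comp
    (Primrec.nat_mul.comp (Primrec.const 2) (Primrec.succ.comp primrec_iN))
    (Primrec.succ.comp (Primrec.nat_add.comp primrec_iP primrec_iQ))

theorem primrec_iR : Primrec iR :=
  primrec_num.comp (Primrec.pair Primrec.fst primrec_iW)

theorem primrec_iE : Primrec iE :=
  Primrec.nat_mul.comp (Primrec.nat_mul.comp primrec_iB primrec_iB) primrec_iW

theorem primrec_iAE : Primrec fun z => iA z * iE z := Primrec.nat_mul.comp primrec_iA primrec_iE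

theorem primrec_iF : Primrec iF :=
  primrec_pow.comp (Primrec.nat_sub.comp primrec_iAE primrec_iB) primrec_iE

theorem primrec_iG : Primrec iG :=
  Primrec.nat_mul.comp
    (Primrec.nat_mul.comp (primrec_pow.comp primrec_iA primrec_two_iK)
      (primrec_pow.comp (Primrec.const 2) primrec_iW))
    (primrec_pow.comp primrec_iAE primrec_iE)

theorem primrec_core : Primrec core :=
  Primrec.pair (Primrec.nat_mul.comp (Primrec.nat_mul.comp primrec_iP primrec_iR) primrec_iF)
    (Primrec.pair
      (Primrec.nat_mul.comp (Primrec.nat_mul.comp primrec_iQ primrec_iR) primrec_iF)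
      (Primrec.nat_sub.comp primrec_iG (Primrec.const 1)))

theorem primrecPred_good : PrimrecPred Good := by
  have h1 : PrimrecPred fun z : Inp => z.2.1 = 0 :=
    Primrec.eq.comp (Primrec.fst.comp Primrec.snd) (Primrec.const 0)
  have h2 : PrimrecPred fun z : Inp => ∀ o ∈ z.2.2.1, o = none := by
    have h := PrimrecPred.forall_mem_list (p := fun o : Option (Fin 3) => o = none)
      (Primrec.eq.comp Primrec.id (Primrec.const none))
    exact h.comp (Primrec.fst.comp (Primrec.snd.comp Primrec.snd))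
  have h3 : PrimrecPred fun z : Inp => z.2.2.2.1.1 < z.2.2.2.1.2 + 1 :=
    Primrec.nat_lt.comp primrec_time1 primrec_iB
  exact h1.and (h2.and h3)

theorem primrec_answer : Primrec answer :=
  Primrec.ite primrecPred_good primrec_core (Primrec.const (0, 0, 0))

/-! ### correctness of the essential case -/

theorem core_correct (z : Inp) (hz : z.2.2.2.1.1 < z.2.2.2.1.2 + 1) :
    |amp z.1.1 z.1.2 * profD (iK z) ((z.2.2.2.1.1 : ℝ) / (z.2.2.2.1.2 + 1)) - ratOf (core z)|
      ≤ 1 / ((iN z : ℝ) + 1) := by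
  have hA : 0 < iA z := by unfold iA; omega
  have hB : 0 < iB z := by unfold iB; omega
  have hW : 0 < iW z := by unfold iW; positivity
  have hE : 0 < iE z := by unfold iE; positivity
  have hBE : iB z ≤ iA z * iE z := by
    unfold iE
    calc iB z = 1 * (iB z * 1 * 1) := by ring
      _ ≤ iA z * (iB z * iB z * iW z) := by
        gcongr <;> omega
  have hA' : (0 : ℝ) < iA z := by exact_mod_cast hA
  have hB' : (0 : ℝ) < iB z := by exact_mod_cast hB
  have hE' : (0 : ℝ) < iE z := by exact_mod_cast hE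
  have hW' : (0 : ℝ) < iW z := by exact_mod_cast hW
  -- the time variable
  have ht : (1 : ℝ) - (z.2.2.2.1.1 : ℝ) / (z.2.2.2.1.2 + 1) = (iA z : ℝ) / iB z := by
    unfold iA iB
    rw [Nat.cast_sub hz.le]
    push_cast
    have : (z.2.2.2.1.2 : ℝ) + 1 ≠ 0 := by positivity
    field_simp
  have hprof : profD (iK z) ((z.2.2.2.1.1 : ℝ) / (z.2.2.2.1.2 + 1)) =
      ((iP z : ℝ) - iQ z) / (iA z : ℝ) ^ (2 * iK z) * Real.exp (-((iB z : ℝ) / iA z)) := by
    unfold profD
    rw [ht, inv_div, eval_polyOf (D := 2 * iK z) hA _ (derivTerms_bound _)]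
    have hpos : ¬ ((iA z : ℝ) / iB z ≤ 0) := by
      have : 0 < (iA z : ℝ) / iB z := by positivity
      linarith
    rw [expNegInvGlue, if_neg hpos, inv_div]
    rfl
  set e : ℝ := Real.exp (-((iB z : ℝ) / iA z)) with he
  set e' : ℝ := ((iA z * iE z - iB z : ℕ) : ℝ) ^ iE z / ((iA z * iE z : ℕ) : ℝ) ^ iE z with he'
  set r : ℝ := amp z.1.1 z.1.2 with hr
  set r' : ℝ := (num z.1.1 z.1.2 (iW z) : ℝ) / 2 ^ iW z with hr'
  set s : ℝ := ((iP z : ℝ) - iQ z) / (iA z : ℝ) ^ (2 * iK z) with hs
  have hrat : ratOf (core z) = s * (r' * e') := by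
    unfold ratOf core
    have hG : 0 < iG z := by unfold iG; positivity
    have hG' : ((iG z - 1 : ℕ) : ℝ) + 1 = iG z := by
      rw [Nat.cast_sub hG]; push_cast; ring
    simp only [hG']
    rw [hs, hr', he']
    unfold iR iF iG
    push_cast
    field_simp
  rw [hprof, hrat]
  have e1 : |e - e'| ≤ 1 / iW z := by
    have h := exp_approx hA hE hBE
    refine h.trans (le_of_eq ?_)
    unfold iE
    push_cast
    field_simp
  have r1 : |r - r'| ≤ 1 / iW z := by
    have h := amp_approx z.1.1 z.1.2 (iW z)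
    refine h.trans ?_
    apply one_div_le_one_div_of_le hW'
    have : iW z ≤ 2 ^ iW z := Nat.lt_two_pow_self.le
    exact_mod_cast this
  have hr0 : 0 ≤ r := amp_nonneg _ _
  have hr1 : r ≤ 1 := amp_le_one _ _
  have he0 : 0 ≤ e' := by positivity
  have he1 : e' ≤ 1 := by
    rw [he']
    rw [div_le_one (by positivity)]
    apply pow_le_pow_left₀ (by positivity)
    exact_mod_cast Nat.sub_le _ _
  have key : |r * e - r' * e'| ≤ 2 / iW z := by
    have : r * e - r' * e' = r * (e - e') + (r - r') * e' := by ring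
    rw [this]
    refine (abs_add_le _ _).trans ?_
    rw [abs_mul, abs_mul, abs_of_nonneg hr0, abs_of_nonneg he0]
    have h1 : r * |e - e'| ≤ 1 / iW z := by
      calc r * |e - e'| ≤ 1 * |e - e'| := by gcongr
        _ = |e - e'| := one_mul _
        _ ≤ _ := e1
    have h2 : |r - r'| * e' ≤ 1 / iW z := by
      calc |r - r'| * e' ≤ |r - r'| * 1 := by gcongr
        _ = |r - r'| := mul_one _
        _ ≤ _ := r1
    calc r * |e - e'| + |r - r'| * e' ≤ 1 / iW z + 1 / iW z := add_le_add h1 h2
      _ = 2 / iW z := by ring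
  have hsabs : |s| ≤ (iP z : ℝ) + iQ z := by
    rw [hs, abs_div]
    have hpow : (1 : ℝ) ≤ |(iA z : ℝ) ^ (2 * iK z)| := by
      rw [abs_of_nonneg (by positivity)]
      apply one_le_pow₀
      exact_mod_cast hA
    calc |(iP z : ℝ) - iQ z| / |(iA z : ℝ) ^ (2 * iK z)| ≤ |(iP z : ℝ) - iQ z| :=
          div_le_self (abs_nonneg _) hpow
      _ ≤ |(iP z : ℝ)| + |(iQ z : ℝ)| := abs_sub _ _
      _ = (iP z : ℝ) + iQ z := by simp
  have : r * (s * e) - s * (r' * e') = s * (r * e - r' * e') := by ring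
  rw [this, abs_mul]
  calc |s| * |r * e - r' * e'| ≤ ((iP z : ℝ) + iQ z) * (2 / iW z) := by gcongr
    _ ≤ ((iP z : ℝ) + iQ z + 1) * (2 / iW z) :=
        mul_le_mul_of_nonneg_right (by linarith) (by positivity)
    _ = 1 / ((iN z : ℝ) + 1) := by
        unfold iW
        push_cast
        field_simp

end Vale.Agent.P113
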